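import Mathlib.GroupTheory.Index
import Mathlib.Analysis.Subadditive
import Mathlib.Topology.MetricSpace.IsometricSMul
import Mathlib.Algebra.QuadraticDiscriminant
import Mathlib.Algebra.Group.Conj
import Mathlib.Analysis.SpecificLimits.Basic
import Mathlib.Topology.Instances.Real.Lemmas
import Mathlib.Analysis.Real.Sqrt
import Mathlib.Tactic.Group
import Mathlib.Analysis.Normed.Group.Basic
import Mathlib.Analysis.Normed.Group.Continuity
import Mathlib.Tactic.Linarith
import Mathlib.Tactic.FieldSimp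
import Mathlib.Tactic.Positivity

/-!
# Groups covered by finitely many cyclic subgroups up to conjugation: flats

A group `G` which is the union of the conjugates of finitely many cyclic subgroups has no
finite-index subgroup with a quotient acting by isometries on a space with the quadrilateral
inequality of CAT(0) geometry with an undistorted pair of commuting elements.
-/

namespace Vale.Agent.P216.H525

set_option linter.unusedSectionVars false
set_option linter.unusedVariables false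

open Filter Topology

/-! ### Lemma 0 -/

/-- Values of a homogeneous conjugation invariant function on a cyclically covered group. -/
theorem exists_finite_values {G P : Type*} [Group G] [Group P]
    (hG : ∃ F : Set G, F.Finite ∧ ∀ g : G, ∃ a ∈ F, ∃ k : ℤ, IsConj g (a ^ k))
    (H : Subgroup G) (hH : H.FiniteIndex) (π : H →* P) (hπ : Function.Surjective π)
    (f : P → ℝ) (hf : ∀ x y, f (x * y * x⁻¹) = f y) (hf' : ∀ x (n : ℤ), f (x ^ n) = |(n : ℝ)| * f x) :
    ∃ C : Set ℝ, C.Finite ∧ ∀ x : P, ∃ c ∈ C, ∃ n : ℕ, f x = n * c := by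
  classical
  obtain ⟨F, hF, hcov⟩ := hG
  set N : ℕ := H.index.factorial with hN
  have hN0 : 0 < N := Nat.factorial_pos _
  have hpow : ∀ b : G, b ^ N ∈ H := fun b =>
    H.pow_mem_of_index_ne_zero_of_dvd hH.index_ne_zero b
      (fun m hm hm' => Nat.dvd_factorial hm hm')
  have : Finite (G ⧸ H) := Subgroup.finite_quotient_of_finiteIndex
  -- the finite set of values
  let T : Set G := Set.range (fun q : G ⧸ H => (Quotient.out q)⁻¹)
  have hT : T.Finite := Set.finite_range _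
  let φ : G × G → ℝ := fun p => f (π ⟨(p.1 * p.2 * p.1⁻¹) ^ N, hpow _⟩) / N
  refine ⟨φ '' (T ×ˢ F), (hT.prod hF).image _, fun z => ?_⟩
  obtain ⟨h, rfl⟩ := hπ z
  obtain ⟨a, ha, k, hk⟩ := hcov (h : G)
  obtain ⟨x, hx⟩ := isConj_iff.1 hk.symm
  -- x * a ^ k * x⁻¹ = h
  set t : G := (Quotient.out ((x⁻¹ : G) : G ⧸ H))⁻¹ with ht
  have hy : x * t⁻¹ ∈ H := by
    have h1 : ((Quotient.out ((x⁻¹ : G) : G ⧸ H) : G) : G ⧸ H) = ((x⁻¹ : G) : G ⧸ H) :=
      Quotient.out_eq' _
    have h2 := QuotientGroup.eq.1 h1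
    -- out⁻¹ * x⁻¹ ∈ H
    have h3 := H.inv_mem h2
    simpa [ht, mul_inv_rev] using h3
  refine ⟨φ (t, a), ⟨(t, a), ⟨⟨_, rfl⟩, ha⟩, rfl⟩, k.natAbs, ?_⟩
  have hkey : h ^ N = (⟨x * t⁻¹, hy⟩ : H) * (⟨(t * a * t⁻¹) ^ N, hpow _⟩ : H) ^ k *
      (⟨x * t⁻¹, hy⟩ : H)⁻¹ := by
    apply Subtype.ext
    simp only [Subgroup.coe_pow, Subgroup.coe_mul, Subgroup.coe_inv, Subgroup.coe_zpow]
    have e1 : ((t * a * t⁻¹) ^ N) ^ k = t * (a ^ k) ^ N * t⁻¹ := by
      rw [conj_pow, conj_zpow, ← zpow_natCast, ← zpow_natCast, ← zpow_mul, ← zpow_mul, mul_comm]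
    rw [e1, ← hx, conj_pow]
    group
  have h4 : f (π (h ^ N)) = |(k : ℝ)| * f (π ⟨(t * a * t⁻¹) ^ N, hpow _⟩) := by
    rw [hkey, map_mul, map_mul, map_inv, hf, map_zpow, hf']
  rw [map_pow, ← zpow_natCast, hf'] at h4
  have hNR : (0 : ℝ) < N := by exact_mod_cast hN0
  have h5 : ((k.natAbs : ℕ) : ℝ) = |(k : ℝ)| := by
    rw [Nat.cast_natAbs]; simp
  rw [h5]
  simp only [φ]
  have h6 : |((N : ℤ) : ℝ)| = N := by simp
  rw [h6] at h4
  field_simp
  linarith


/-! ### Discreteness: a square root of a positive definite quadratic form -/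

/-- If `s m ≥ 0`, `s m ^ 2 = A m² + 2 B m + C`, `A C > B²`, then the values `s m` are not contained
in a finite union of sets `ℕ c`. -/
theorem not_values {A B C : ℝ} (hA : 0 < A) (hABC : B ^ 2 < A * C) {s : ℕ → ℝ}
    (hs0 : ∀ m, 0 ≤ s m) (hs : ∀ m : ℕ, s m ^ 2 = A * m ^ 2 + 2 * B * m + C)
    {F : Set ℝ} (hF : F.Finite) (hcov : ∀ m, ∃ c ∈ F, ∃ n : ℕ, s m = n * c) : False := by
  classical
  set r : ℝ := Real.sqrt A with hr
  have hr0 : 0 < r := Real.sqrt_pos.2 hA
  have hrr : r * r = A := Real.mul_self_sqrt hA.le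
  set κ : ℝ := C - B ^ 2 / A with hκ
  have hκ0 : 0 < κ := by
    rw [hκ, sub_pos, div_lt_iff₀ hA]; linarith [mul_comm A C]
  let L : ℕ → ℝ := fun m => r * m + B / r
  have hL2 : ∀ m, s m ^ 2 - L m ^ 2 = κ := by
    intro m
    rw [hs]
    simp only [L, hκ]
    have : (B / r) ^ 2 = B ^ 2 / A := by rw [div_pow, sq r, hrr]
    have h2 : r * (B / r) = B := by field_simp
    have h3 : (r * m + B / r) ^ 2 = (r * r) * m ^ 2 + 2 * (r * (B / r)) * m + (B / r) ^ 2 := by ring
    rw [h3, this, h2, hrr]; ring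
  -- choose m₀ with L m₀ > 0
  obtain ⟨m₀, hm₀⟩ := exists_nat_gt (|B / r| / r)
  have hLpos : ∀ m, m₀ ≤ m → 0 < L m := by
    intro m hm
    have h1 : |B / r| < r * m₀ := by
      rw [div_lt_iff₀ hr0] at hm₀; linarith [mul_comm r (m₀ : ℝ)]
    have h2 : (m₀ : ℝ) ≤ m := by exact_mod_cast hm
    have h3 : r * m₀ ≤ r * m := mul_le_mul_of_nonneg_left h2 hr0.le
    have h4 := neg_abs_le (B / r)
    simp only [L]; linarith
  let ε : ℕ → ℝ := fun m => s m - L m
  have hε : ∀ m, m₀ ≤ m → ε m * (s m + L m) = κ := by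
    intro m _
    have := hL2 m
    simp only [ε]; linarith [show (s m - L m) * (s m + L m) = s m ^ 2 - L m ^ 2 by ring]
  have hεpos : ∀ m, m₀ ≤ m → 0 < ε m := by
    intro m hm
    by_contra h
    push Not at h
    have h1 := hε m hm
    have h2 : 0 < s m + L m := by linarith [hs0 m, hLpos m hm]
    nlinarith
  have hεL : ∀ m, m₀ ≤ m → ε m * L m ≤ κ := by
    intro m hm
    have h1 := hε m hm
    nlinarith [hεpos m hm, hs0 m]
  have hεlim : Tendsto ε atTop (𝓝 0) := by
    have h1 : Tendsto L atTop atTop := by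
      apply tendsto_atTop_add_const_right
      exact (tendsto_natCast_atTop_atTop).const_mul_atTop hr0
    have h2 : Tendsto (fun m => κ / L m) atTop (𝓝 0) := h1.const_div_atTop κ
    refine squeeze_zero' (eventually_atTop.2 ⟨m₀, fun m hm => (hεpos m hm).le⟩)
      (eventually_atTop.2 ⟨m₀, fun m hm => ?_⟩) h2
    rw [le_div_iff₀ (hLpos m hm)]
    exact hεL m hm
  -- ε is strictly decreasing beyond m₀
  have hsmono : ∀ m n, m₀ ≤ m → m < n → L m < L n := by
    intro m n _ hmn
    have : (m : ℝ) < n := by exact_mod_cast hmn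
    simp only [L]; nlinarith
  have hεanti : ∀ m n, m₀ ≤ m → m < n → ε n < ε m := by
    intro m n hm hmn
    by_contra h
    push Not at h
    have h1 := hε m hm
    have h2 := hε n (hm.trans hmn.le)
    have h3 := hsmono m n hm hmn
    have h4 : s m + L m < s n + L n := by
      have : s m - L m ≤ s n - L n := h
      linarith
    have h5 := hεpos m hm
    have h6 : 0 < s m + L m := by linarith [hs0 m, hLpos m hm]
    nlinarith
  -- pigeonhole
  have hFt : Fintype F := hF.fintype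
  choose c hc n hn using hcov
  set R : ℕ := Fintype.card F with hR
  have hpig : ∀ m, ∃ p : Fin (R + 1) × Fin (R + 1) × F, p.1 < p.2.1 ∧
      c (m + p.1) = p.2.2 ∧ c (m + p.2.1) = p.2.2 := by
    intro m
    obtain ⟨i, j, hij, hij'⟩ := Fintype.exists_ne_map_eq_of_card_lt
      (fun i : Fin (R + 1) => (⟨c (m + i), hc _⟩ : F)) (by simp [hR])
    have e : c (m + i) = c (m + j) := congrArg Subtype.val hij'
    rcases lt_or_gt_of_ne hij with h | h
    · exact ⟨(i, j, ⟨c (m + i), hc _⟩), h, rfl, e.symm⟩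
    · exact ⟨(j, i, ⟨c (m + j), hc _⟩), h, rfl, e⟩
  choose p hp1 hp2 hp3 using hpig
  obtain ⟨q, hq⟩ := Finite.exists_infinite_fiber p
  rw [Set.infinite_coe_iff] at hq
  obtain ⟨i, j, b⟩ := q
  -- the good set: m with p m = (i, j, b)
  have hgood : ∀ M : ℕ, ∃ m, M ≤ m ∧ i < j ∧ c (m + i) = b ∧ c (m + j) = b := by
    intro M
    obtain ⟨m, hm, hmM⟩ := hq.exists_gt M
    have hm' : p m = (i, j, b) := hm
    refine ⟨m, hmM.le, ?_, ?_, ?_⟩
    · have := hp1 m; rw [hm'] at this; exact this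
    · have := hp2 m; rw [hm'] at this; exact this
    · have := hp3 m; rw [hm'] at this; exact this
  -- δ
  let δ : ℕ → ℝ := fun m => ε (m + i) - ε (m + j)
  have hδ : ∀ m, s (m + j) - s (m + i) = r * ((j : ℕ) - (i : ℕ) : ℝ) - δ m := by
    intro m
    simp only [δ, ε, L]; push_cast; ring
  have hδpos : ∀ m, m₀ ≤ m → i < j → 0 < δ m := by
    intro m hm hij
    have : m + (i : ℕ) < m + (j : ℕ) := by
      have : (i : ℕ) < j := hij
      omega
    have := hεanti _ _ (hm.trans (Nat.le_add_right _ _)) this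
    simp only [δ]; linarith
  have hδlim : Tendsto δ atTop (𝓝 0) := by
    have h1 : Tendsto (fun m => ε (m + i)) atTop (𝓝 0) := hεlim.comp (tendsto_add_atTop_nat _)
    have h2 : Tendsto (fun m => ε (m + j)) atTop (𝓝 0) := hεlim.comp (tendsto_add_atTop_nat _)
    simpa using h1.sub h2
  -- b ≠ 0
  have hb : (b : ℝ) ≠ 0 := by
    intro h0
    obtain ⟨m, hm, -, h1, -⟩ := hgood m₀
    have h2 : s (m + i) = 0 := by rw [hn (m + i), h1, h0, mul_zero]
    have h3 := hLpos (m + i) (hm.trans (Nat.le_add_right _ _))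
    have h4 := hεpos (m + i) (hm.trans (Nat.le_add_right _ _))
    simp only [ε] at h4; linarith
  have hbpos : 0 < |(b : ℝ)| := abs_pos.2 hb
  obtain ⟨M₁, hM₁⟩ := eventually_atTop.1 ((hδlim.eventually (gt_mem_nhds hbpos)))
  obtain ⟨m, hm, hij, h1, h2⟩ := hgood (max m₀ M₁)
  have hm0 : m₀ ≤ m := (le_max_left _ _).trans hm
  have hmδ : δ m < |(b : ℝ)| := hM₁ m ((le_max_right _ _).trans hm)
  have hmδ0 := hδpos m hm0 hij
  obtain ⟨M₂, hM₂⟩ := eventually_atTop.1 ((hδlim.eventually (gt_mem_nhds hmδ0)))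
  obtain ⟨m', hm', -, h1', h2'⟩ := hgood (max m₀ M₂)
  have hm0' : m₀ ≤ m' := (le_max_left _ _).trans hm'
  have hmδ' : δ m' < δ m := hM₂ m' ((le_max_right _ _).trans hm')
  have hmδ0' := hδpos m' hm0' hij
  have e1 := hδ m
  have e2 := hδ m'
  rw [hn (m + j), hn (m + i), h1, h2] at e1
  rw [hn (m' + j), hn (m' + i), h1', h2'] at e2
  have e3 : δ m - δ m' = (((n (m' + j) : ℤ) - n (m' + i) - (n (m + j) - n (m + i)) : ℤ) : ℝ) * b := by
    push_cast
    linarith
  set z : ℤ := ((n (m' + j) : ℤ) - n (m' + i) - (n (m + j) - n (m + i)) : ℤ) with hz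
  have e4 : |δ m - δ m'| = |(z : ℝ)| * |(b : ℝ)| := by rw [e3, abs_mul]
  rw [abs_of_pos (by linarith)] at e4
  have hz0 : z ≠ 0 := by
    intro h0
    rw [h0] at e4
    simp at e4
    linarith
  have hz1 : (1 : ℝ) ≤ |(z : ℝ)| := by
    have := Int.one_le_abs hz0
    exact_mod_cast this
  nlinarith


/-! ### Translation lengths -/

section Translation

variable {P X : Type*} [Group P] [PseudoMetricSpace X] [MulAction P X] [IsIsometricSMul P X]

/-- The displacement `d(x, gⁿ x)`. -/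
def disp (x : X) (g : P) (n : ℕ) : ℝ := dist x (g ^ n • x)

theorem disp_nonneg (x : X) (g : P) (n : ℕ) : 0 ≤ disp x g n := dist_nonneg

theorem disp_subadditive (x : X) (g : P) : Subadditive (disp x g) := by
  intro m n
  have h1 : dist (g ^ m • x) (g ^ (m + n) • x) = dist x (g ^ n • x) := by
    rw [pow_add, mul_smul, dist_smul]
  calc disp x g (m + n) = dist x (g ^ (m + n) • x) := rfl
    _ ≤ dist x (g ^ m • x) + dist (g ^ m • x) (g ^ (m + n) • x) := dist_triangle _ _ _
    _ = disp x g m + disp x g n := by rw [h1]; rfl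

/-- The translation length `lim d(x, gⁿ x) / n`. -/
noncomputable def tau (x : X) (g : P) : ℝ := (disp_subadditive x g).lim

theorem tendsto_tau (x : X) (g : P) :
    Tendsto (fun n : ℕ => disp x g n / n) atTop (𝓝 (tau x g)) := by
  apply (disp_subadditive x g).tendsto_lim
  refine ⟨0, ?_⟩
  rintro _ ⟨n, rfl⟩
  exact div_nonneg (disp_nonneg _ _ _) (Nat.cast_nonneg _)

theorem tau_nonneg (x : X) (g : P) : 0 ≤ tau x g :=
  ge_of_tendsto' (tendsto_tau x g) fun n => div_nonneg (disp_nonneg _ _ _) (Nat.cast_nonneg _)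

theorem tau_base (x y : X) (g : P) : tau x g = tau y g := by
  have h1 : Tendsto (fun n : ℕ => 2 * dist x y / (n : ℝ)) atTop (𝓝 0) :=
    tendsto_const_div_atTop_nhds_zero_nat _
  have h2 : Tendsto (fun n : ℕ => disp x g n / n - disp y g n / n) atTop (𝓝 0) := by
    rw [tendsto_zero_iff_abs_tendsto_zero]
    refine squeeze_zero (fun n => abs_nonneg _) (fun n => ?_) h1
    simp only [Function.comp_apply]
    rw [← sub_div, abs_div, Nat.abs_cast]
    refine div_le_div_of_nonneg_right ?_ (Nat.cast_nonneg _)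
    have e1 : dist (g ^ n • x) (g ^ n • y) = dist x y := dist_smul _ _ _
    have e2 : dist x (g ^ n • x) ≤ dist x y + dist y (g ^ n • y) + dist (g ^ n • y) (g ^ n • x) := by
      have := dist_triangle x y (g ^ n • y)
      have := dist_triangle x (g ^ n • y) (g ^ n • x)
      linarith
    have e3 : dist y (g ^ n • y) ≤ dist y x + dist x (g ^ n • x) + dist (g ^ n • x) (g ^ n • y) := by
      have := dist_triangle y x (g ^ n • x)
      have := dist_triangle y (g ^ n • x) (g ^ n • y)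
      linarith
    rw [dist_comm (g ^ n • y), e1] at e2
    rw [e1, dist_comm y x] at e3
    simp only [disp]
    rw [abs_le]
    constructor <;> linarith
  have h3 := (tendsto_tau x g).sub (tendsto_tau y g)
  have h4 := tendsto_nhds_unique h3 h2
  linarith

theorem tau_conj (x : X) (k g : P) : tau x (k * g * k⁻¹) = tau x g := by
  have h1 : ∀ n, disp x (k * g * k⁻¹) n = disp (k⁻¹ • x) g n := by
    intro n
    simp only [disp]
    rw [conj_pow, mul_smul, mul_smul, ← dist_smul k⁻¹ x, inv_smul_smul]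
  have h2 := tendsto_tau x (k * g * k⁻¹)
  have h3 : Tendsto (fun n : ℕ => disp x (k * g * k⁻¹) n / n) atTop (𝓝 (tau (k⁻¹ • x) g)) := by
    simp only [h1]; exact tendsto_tau _ _
  rw [tendsto_nhds_unique h2 h3]
  exact tau_base _ _ _

theorem tau_pow (x : X) (g : P) (k : ℕ) : tau x (g ^ k) = k * tau x g := by
  rcases Nat.eq_zero_or_pos k with rfl | hk
  · have h1 : Tendsto (fun n : ℕ => disp x (g ^ 0) n / n) atTop (𝓝 0) := by
      simp [disp]
    rw [tendsto_nhds_unique (tendsto_tau x (g ^ 0)) h1]; simp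
  · have h1 : Tendsto (fun n : ℕ => k * (disp x g (k * n) / ((k * n : ℕ) : ℝ))) atTop
        (𝓝 (k * tau x g)) := by
      apply Tendsto.const_mul
      exact (tendsto_tau x g).comp (tendsto_id.const_mul_atTop' hk)
    refine tendsto_nhds_unique (tendsto_tau x (g ^ k)) (h1.congr fun n => ?_)
    have hk' : (k : ℝ) ≠ 0 := by exact_mod_cast hk.ne'
    rcases Nat.eq_zero_or_pos n with rfl | hn
    · simp
    · have hn' : (n : ℝ) ≠ 0 := by exact_mod_cast hn.ne'
      simp only [disp, ← pow_mul]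
      push_cast
      field_simp

theorem tau_inv (x : X) (g : P) : tau x g⁻¹ = tau x g := by
  refine tendsto_nhds_unique (tendsto_tau x g⁻¹) ((tendsto_tau x g).congr fun n => ?_)
  have : disp x g⁻¹ n = disp x g n := by
    simp only [disp]
    rw [← dist_smul (g ^ n) x, inv_pow, smul_inv_smul, dist_comm]
  rw [this]

theorem tau_zpow (x : X) (g : P) (k : ℤ) : tau x (g ^ k) = |(k : ℝ)| * tau x g := by
  rcases Int.eq_nat_or_neg k with ⟨n, rfl | rfl⟩
  · rw [zpow_natCast, tau_pow]; simp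
  · rw [zpow_neg, tau_inv, zpow_natCast, tau_pow]; simp

/-- The quadrilateral inequality. -/
def Quadrilateral (X : Type*) [PseudoMetricSpace X] : Prop :=
  ∀ x y z w : X, dist x z ^ 2 + dist y w ^ 2 ≤
    dist x y ^ 2 + dist y z ^ 2 + dist z w ^ 2 + dist w x ^ 2

theorem disp_para (hX : Quadrilateral X) (x : X) {a b : P} (h : Commute a b) (n : ℕ) :
    disp x (a * b) n ^ 2 + disp x (a⁻¹ * b) n ^ 2 ≤ 2 * disp x a n ^ 2 + 2 * disp x b n ^ 2 := by
  have h1 := hX x (a ^ n • x) ((a * b) ^ n • x) (b ^ n • x)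
  have e1 : dist (a ^ n • x) (b ^ n • x) = disp x (a⁻¹ * b) n := by
    simp only [disp]
    rw [(h.inv_left).mul_pow, mul_smul, ← dist_smul (a ^ n) x, inv_pow, smul_inv_smul]
  have e2 : dist (a ^ n • x) ((a * b) ^ n • x) = disp x b n := by
    simp only [disp]
    rw [h.mul_pow, mul_smul, dist_smul]
  have e3 : dist ((a * b) ^ n • x) (b ^ n • x) = disp x a n := by
    simp only [disp]
    rw [h.eq, h.symm.mul_pow, mul_smul, dist_smul, dist_comm]
  have e4 : dist (b ^ n • x) x = disp x b n := by rw [dist_comm]; rfl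
  rw [e1, e2, e3, e4] at h1
  have e5 : dist x (a ^ n • x) = disp x a n := rfl
  have e6 : dist x ((a * b) ^ n • x) = disp x (a * b) n := rfl
  rw [e5, e6] at h1
  linarith

theorem tau_para_le (hX : Quadrilateral X) (x : X) {a b : P} (h : Commute a b) :
    tau x (a * b) ^ 2 + tau x (a⁻¹ * b) ^ 2 ≤ 2 * tau x a ^ 2 + 2 * tau x b ^ 2 := by
  have h1 := ((tendsto_tau x (a * b)).pow 2).add ((tendsto_tau x (a⁻¹ * b)).pow 2)
  have h2 := (((tendsto_tau x a).pow 2).const_mul 2).add (((tendsto_tau x b).pow 2).const_mul 2)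
  refine le_of_tendsto_of_tendsto' h1 h2 fun n => ?_
  have h3 := disp_para hX x h n
  rcases Nat.eq_zero_or_pos n with rfl | hn
  · simp
  · have hn' : (0 : ℝ) < (n : ℝ) ^ 2 := by positivity
    have e : ∀ u : ℝ, (u / n) ^ 2 = u ^ 2 / (n : ℝ) ^ 2 := fun u => div_pow _ _ _
    simp only [e]
    rw [← add_div, ← mul_div_assoc, ← mul_div_assoc, ← add_div]
    exact div_le_div_of_nonneg_right h3 hn'.le

/-- The parallelogram law for commuting isometries. -/
theorem tau_para (hX : Quadrilateral X) (x : X) {a b : P} (h : Commute a b) :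
    tau x (a * b) ^ 2 + tau x (a⁻¹ * b) ^ 2 = 2 * tau x a ^ 2 + 2 * tau x b ^ 2 := by
  refine le_antisymm (tau_para_le hX x h) ?_
  have hc : Commute (a * b) (a⁻¹ * b) := by
    apply Commute.mul_left
    · exact Commute.mul_right (Commute.inv_right (Commute.refl a)) h
    · exact Commute.mul_right (h.symm.inv_right) (Commute.refl b)
  have h1 := tau_para_le hX x hc
  have e1 : a * b * (a⁻¹ * b) = b ^ 2 := by
    rw [sq, h.eq]; group
  have e2 : (a * b)⁻¹ * (a⁻¹ * b) = (a⁻¹) ^ 2 := by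
    have h5 : (a⁻¹) ^ 2 * b = b * (a⁻¹) ^ 2 := (h.inv_left.pow_left 2).eq
    have h6 : (a * b)⁻¹ * (a⁻¹ * b) = b⁻¹ * ((a⁻¹) ^ 2 * b) := by group
    rw [h6, h5, inv_mul_cancel_left]
  rw [e1, e2, tau_pow, tau_pow, tau_inv] at h1
  push_cast at h1
  nlinarith

theorem sq_tau (hX : Quadrilateral X) (x : X) {g h : P} (hc : Commute g h) (m : ℕ) :
    tau x (g ^ m * h) ^ 2 = tau x g ^ 2 * m ^ 2 +
      (tau x (g * h) ^ 2 - tau x g ^ 2 - tau x h ^ 2) * m + tau x h ^ 2 := by
  induction m using Nat.twoStepInduction with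
  | zero => simp
  | one => simp; ring
  | more m ih1 ih2 =>
    have hc' : Commute g (g ^ (m + 1) * h) :=
      Commute.mul_right ((Commute.refl g).pow_right _) hc
    have h1 := tau_para hX x hc'
    have e1 : g * (g ^ (m + 1) * h) = g ^ (m + 2) * h := by
      rw [← mul_assoc, ← pow_succ']
    have e2 : g⁻¹ * (g ^ (m + 1) * h) = g ^ m * h := by
      rw [← mul_assoc, pow_succ', inv_mul_cancel_left]
    rw [e1, e2, ih1, ih2] at h1
    push_cast at h1 ⊢
    linarith

/-- `τ(gᵐ hⁿ)²` is a quadratic form. -/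
theorem sq_tau_nat (hX : Quadrilateral X) (x : X) {g h : P} (hc : Commute g h) (m n : ℕ) :
    tau x (g ^ m * h ^ n) ^ 2 = tau x g ^ 2 * m ^ 2 +
      (tau x (g * h) ^ 2 - tau x g ^ 2 - tau x h ^ 2) * (m * n) + tau x h ^ 2 * n ^ 2 := by
  rw [sq_tau hX x (hc.pow_right n) m, tau_pow]
  have h1 := sq_tau hX x hc.symm n
  rw [(hc.pow_right n).eq, h1, ← hc.eq]
  ring

theorem pos_def (hX : Quadrilateral X) (x : X) {g h : P} (hc : Commute g h) {ε K : ℝ} (hε : 0 < ε)
    (hlow : ∀ m n : ℤ, ε * (|(m : ℝ)| + |(n : ℝ)|) - K ≤ dist x ((g ^ m * h ^ n) • x)) :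
    0 < tau x g ^ 2 ∧ ((tau x (g * h) ^ 2 - tau x g ^ 2 - tau x h ^ 2) / 2) ^ 2 <
      tau x g ^ 2 * tau x h ^ 2 := by
  set A := tau x g ^ 2 with hA
  set C := tau x h ^ 2 with hC
  set B := (tau x (g * h) ^ 2 - A - C) / 2 with hB
  have hlow' : ∀ m n : ℤ, ε * (|(m : ℝ)| + |(n : ℝ)|) ≤ tau x (g ^ m * h ^ n) := by
    intro m n
    have h1 : Tendsto (fun k : ℕ => ε * (|(m : ℝ)| + |(n : ℝ)|) - K / (k : ℝ)) atTop
        (𝓝 (ε * (|(m : ℝ)| + |(n : ℝ)|) - 0)) :=
      tendsto_const_nhds.sub (tendsto_const_div_atTop_nhds_zero_nat _)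
    rw [sub_zero] at h1
    refine le_of_tendsto_of_tendsto h1 (tendsto_tau x (g ^ m * h ^ n))
      (eventually_atTop.2 ⟨1, fun k hk => ?_⟩)
    have hk' : (0 : ℝ) < k := by exact_mod_cast hk
    have h2 := hlow (m * k) (n * k)
    have e1 : (g ^ m * h ^ n) ^ k = g ^ (m * k) * h ^ (n * k) := by
      rw [((hc.zpow_left m).zpow_right n).mul_pow, zpow_mul, zpow_mul, zpow_natCast, zpow_natCast]
    show _ ≤ disp x (g ^ m * h ^ n) k / k
    rw [le_div_iff₀ hk']
    simp only [disp]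
    rw [e1]
    refine le_trans (le_of_eq ?_) h2
    push_cast
    rw [abs_mul, abs_mul, abs_of_pos hk']
    field_simp
  have hsq : ∀ m n : ℤ, ε ^ 2 * ((m : ℝ) ^ 2 + (n : ℝ) ^ 2) ≤ tau x (g ^ m * h ^ n) ^ 2 := by
    intro m n
    have h1 := hlow' m n
    have h2 : 0 ≤ ε * (|(m : ℝ)| + |(n : ℝ)|) := by positivity
    have h3 := pow_le_pow_left₀ h2 h1 2
    refine le_trans ?_ h3
    rw [mul_pow]
    refine mul_le_mul_of_nonneg_left ?_ (sq_nonneg _)
    have := sq_abs (m : ℝ)
    have := sq_abs (n : ℝ)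
    nlinarith [mul_nonneg (abs_nonneg (m : ℝ)) (abs_nonneg (n : ℝ))]
  have hAε : ε ^ 2 ≤ A := by
    have := hsq 1 0
    simpa using this
  have hCε : ε ^ 2 ≤ C := by
    have := hsq 0 1
    simpa using this
  -- nonnegativity at integer points with n > 0
  have hint : ∀ (m : ℤ) (n : ℕ), 0 ≤ (A - ε ^ 2) * (m : ℝ) ^ 2 + 2 * B * (m * n) +
      (C - ε ^ 2) * (n : ℝ) ^ 2 := by
    intro m n
    have h1 := hsq m n
    rcases Int.eq_nat_or_neg m with ⟨k, rfl | rfl⟩
    · have h2 := sq_tau_nat hX x hc k n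
      simp only [zpow_natCast] at h1
      rw [h2] at h1
      push_cast at h1 ⊢
      rw [hB]
      nlinarith
    · have h2 := sq_tau_nat hX x hc.inv_left k n
      have h3 := tau_para hX x hc
      rw [tau_inv] at h2
      simp only [zpow_neg, zpow_natCast] at h1
      rw [inv_pow] at h2
      rw [h2] at h1
      push_cast at h1 ⊢
      have h4 : tau x (g⁻¹ * h) ^ 2 = 2 * A + 2 * C - tau x (g * h) ^ 2 := by linarith
      rw [h4] at h1
      rw [hB]
      nlinarith
  have hrat : ∀ q : ℚ, 0 ≤ (A - ε ^ 2) * ((q : ℝ) * q) + (2 * B) * q + (C - ε ^ 2) := by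
    intro q
    have h1 := hint q.num q.den
    have hd : (0 : ℝ) < q.den := by exact_mod_cast q.den_pos
    have hq : (q : ℝ) = q.num / q.den := by
      exact_mod_cast (Rat.num_div_den q).symm
    have h2 : (A - ε ^ 2) * ((q : ℝ) * q) + (2 * B) * q + (C - ε ^ 2) =
        ((A - ε ^ 2) * (q.num : ℝ) ^ 2 + 2 * B * (q.num * q.den) +
      (C - ε ^ 2) * (q.den : ℝ) ^ 2) / (q.den : ℝ) ^ 2 := by
      rw [hq]; field_simp
    rw [h2]
    exact div_nonneg h1 (by positivity)
  have hreal : ∀ t : ℝ, 0 ≤ (A - ε ^ 2) * (t * t) + (2 * B) * t + (C - ε ^ 2) := by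
    intro t
    refine Rat.denseRange_cast.induction_on (p := fun t : ℝ =>
      0 ≤ (A - ε ^ 2) * (t * t) + (2 * B) * t + (C - ε ^ 2)) t ?_ hrat
    exact isClosed_le continuous_const (by fun_prop)
  have hdisc := discrim_le_zero hreal
  unfold discrim at hdisc
  have hε2 : 0 < ε ^ 2 := by positivity
  refine ⟨lt_of_lt_of_le hε2 hAε, ?_⟩
  nlinarith [mul_nonneg (sub_nonneg.2 hAε) hε2.le, mul_nonneg (sub_nonneg.2 hCε) hε2.le,
    mul_pos hε2 hε2]

/-- **Theorem B.** A group covered by the conjugates of finitely many cyclic subgroups has no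
finite-index subgroup `H` with a quotient `P` acting by isometries on a space with the
quadrilateral inequality, such that two commuting elements `g, h` of `P` generate an undistorted
`ℤ²`. -/
theorem not_cyclicallyCovered_of_flat {G : Type*} [Group G]
    (H : Subgroup G) (hH : H.FiniteIndex) (π : H →* P) (hπ : Function.Surjective π)
    (hX : Quadrilateral X) (x : X) {g h : P} (hc : g * h = h * g) {ε K : ℝ} (hε : 0 < ε)
    (hlow : ∀ m n : ℤ, ε * (|(m : ℝ)| + |(n : ℝ)|) - K ≤ dist x ((g ^ m * h ^ n) • x)) :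
    ¬ ∃ F : Set G, F.Finite ∧ ∀ g : G, ∃ a ∈ F, ∃ k : ℤ, IsConj g (a ^ k) := by
  intro hG
  have hc' : Commute g h := hc
  obtain ⟨C, hC, hcov⟩ := exists_finite_values hG H hH π hπ (fun p : P => tau x p)
    (fun a b => tau_conj x a b) (fun a n => tau_zpow x a n)
  obtain ⟨h1, h2⟩ := pos_def hX x hc' hε hlow
  exact not_values h1 h2 (s := fun m => tau x (g ^ m * h)) (fun m => tau_nonneg _ _)
    (fun m => by rw [sq_tau hX x hc' m]; ring) hC (fun m => hcov _)

/-- Theorem B for `P` itself. -/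
theorem not_fcc_of_flat (hX : Quadrilateral X) (x : X) {g h : P} (hc : g * h = h * g) {ε K : ℝ}
    (hε : 0 < ε)
    (hlow : ∀ m n : ℤ, ε * (|(m : ℝ)| + |(n : ℝ)|) - K ≤ dist x ((g ^ m * h ^ n) • x)) :
    ¬ ∃ F : Set P, F.Finite ∧ ∀ g : P, ∃ a ∈ F, ∃ k : ℤ, IsConj g (a ^ k) := by
  refine not_cyclicallyCovered_of_flat (⊤ : Subgroup P) inferInstance
    (Subgroup.topEquiv (G := P)).toMonoidHom Subgroup.topEquiv.surjective hX x hc hε hlow

end Translation

end Vale.Agent.P216.H525
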